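import Mathlib

/-! # The oriental order on chains, written from the top -/

namespace Vale.Agent.P213.Chains

variable {Z : Type*} [LinearOrder Z]

/-- Lexicographic from the top with the direction reversed at every step. -/
def altLt : List Z → List Z → Prop
  | _, [] => False
  | [], _ :: _ => True
  | a :: l, b :: m => a < b ∨ a = b ∧ altLt m l
termination_by l m => l.length + m.length
decreasing_by simp; omega

theorem altLt_cons (a : Z) (l m : List Z) : altLt (a :: l) (a :: m) ↔ altLt m l := by
  rw [altLt]; simp

/-- A face omitting an even position from the top comes before, an odd one after. -/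
theorem altLt_eraseIdx (l : List Z) (hl : l.Pairwise (· > ·)) (t : ℕ) (ht : t < l.length) :
    (Even t → altLt (l.eraseIdx t) l) ∧ (Odd t → altLt l (l.eraseIdx t)) := by
  induction l generalizing t with
  | nil => simp at ht
  | cons a l ih =>
    rcases t with _ | t
    · refine ⟨fun _ => ?_, fun h => absurd h (by simp)⟩
      cases l with
      | nil => simp [altLt]
      | cons b m =>
        rw [List.eraseIdx_cons_zero, altLt]
        exact Or.inl ((List.pairwise_cons.1 hl).1 b (List.mem_cons_self ..))
    · have := ih (List.pairwise_cons.1 hl).2 t (by simpa using ht)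
      simp only [List.eraseIdx_cons_succ, altLt_cons, Nat.even_add_one, Nat.odd_add_one,
        Nat.not_even_iff_odd, Nat.not_odd_iff_even]
      exact ⟨this.2, this.1⟩

theorem altLt_trichotomous : ∀ l m : List Z, altLt l m ∨ l = m ∨ altLt m l
  | [], [] => Or.inr (Or.inl rfl)
  | [], b :: m => Or.inl (by simp [altLt])
  | a :: l, [] => Or.inr (Or.inr (by simp [altLt]))
  | a :: l, b :: m => by
    rcases lt_trichotomy a b with h | h | h
    · exact Or.inl (by simp [altLt, h])
    · subst h
      simp only [altLt_cons, List.cons.injEq, true_and]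
      rcases altLt_trichotomous m l with h | h | h
      exacts [Or.inl h, Or.inr (Or.inl h.symm), Or.inr (Or.inr h)]
    · exact Or.inr (Or.inr (by simp [altLt, h]))
termination_by l m => l.length + m.length

theorem altLt_irrefl : ∀ l : List Z, ¬ altLt l l
  | [] => by simp [altLt]
  | a :: l => by rw [altLt_cons]; exact altLt_irrefl l

theorem altLt_trans : ∀ {l m n : List Z}, altLt l m → altLt m n → altLt l n
  | _, [], _, h, _ => by simp [altLt] at h
  | _, _ :: _, [], _, h => by simp [altLt] at h
  | [], _ :: _, _ :: _, _, _ => by simp [altLt]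
  | a :: l, b :: m, c :: n, h₁, h₂ => by
    rw [altLt] at h₁ h₂ ⊢
    rcases h₁ with h₁ | ⟨rfl, h₁⟩ <;> rcases h₂ with h₂ | ⟨rfl, h₂⟩
    · exact Or.inl (h₁.trans h₂)
    · exact Or.inl h₁
    · exact Or.inl h₂
    · exact Or.inr ⟨rfl, altLt_trans h₂ h₁⟩
termination_by l m n => l.length + m.length + n.length

end Vale.Agent.P213.Chains
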