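import Mathlib

/-!
The partial retractions `id - [d, T]` on chains, with `a` immediately below `x`.
-/

namespace Vale.Agent.P213.Chains

open Finset Finsupp

variable {E : Type*} [LinearOrder E]

/-- Formal sums of finite sets of vertices. -/
abbrev Cn (E : Type*) := Finset E →₀ ℤ

/-- The sign of a vertex in a chain. -/
def sgn (c : Finset E) (v : E) : ℤ := (-1) ^ #(c.filter (· < v))

/-- The augmented boundary. -/
noncomputable def bd (c : Finset E) : Cn E := ∑ v ∈ c, single (c.erase v) (sgn c v)

/-- The part of the homotopy whose lower chains are not in `S`. -/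
noncomputable def hom (a x : E) (S : Finset E → Prop) [DecidablePred S] (c : Finset E) : Cn E :=
  if x ∈ c ∧ a ∉ c ∧ ¬ S (c.filter (· < a)) then single (insert a c) (sgn c x) else 0

/-- The homotopy extended linearly. -/
noncomputable def homLin (a x : E) (S : Finset E → Prop) [DecidablePred S] : Cn E →+ Cn E :=
  Finsupp.liftAddHom fun c => (smulAddHom ℤ (Cn E)).flip (hom a x S c)

/-- The boundary extended linearly. -/
noncomputable def bdLin : Cn E →+ Cn E :=
  Finsupp.liftAddHom fun c => (smulAddHom ℤ (Cn E)).flip (bd c)

/-- The partial retraction. -/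
noncomputable def psi (a x : E) (S : Finset E → Prop) [DecidablePred S] (c : Finset E) : Cn E :=
  single c 1 - bdLin (hom a x S c) - homLin a x S (bd c)

theorem bdLin_single (c : Finset E) (r : ℤ) : bdLin (single c r) = r • bd c := by
  simp [bdLin]

theorem homLin_single (a x : E) (S : Finset E → Prop) [DecidablePred S] (c : Finset E) (r : ℤ) :
    homLin a x S (single c r) = r • hom a x S c := by
  simp [homLin]

/-- `1` outside `S`. -/
def chi (S : Finset E → Prop) [DecidablePred S] (z : Finset E) : ℤ := if S z then 0 else 1

variable {a x : E} (hax : a < x) (hcov : ∀ v, v < a ∨ v = a ∨ v = x ∨ x < v)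
  (S : Finset E → Prop) [DecidablePred S] {c : Finset E}

theorem hom_of_mem (hx : x ∈ c) (ha : a ∉ c) :
    hom a x S c = chi S (c.filter (· < a)) • single (insert a c) (sgn c x) := by
  by_cases h : S (c.filter (· < a)) <;> simp [hom, chi, hx, ha, h]

include hax hcov in
theorem psi_of_notMem (hx : x ∈ c) (ha : a ∉ c) :
    psi a x S c = single c (1 - chi S (c.filter (· < a)))
      + single ((insert a c).erase x) (chi S (c.filter (· < a)))
      + ∑ v ∈ c.filter (· < a), single (insert a (c.erase v))
          (sgn c v * sgn c x * (chi S ((c.filter (· < a)).erase v) - chi S (c.filter (· < a)))) := by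
  classical
  set z := c.filter (· < a) with hz
  set χ := chi S z with hχ
  have hzx : c.filter (· < x) = z := by
    refine filter_congr fun v hv => ⟨fun h => ?_, fun h => h.trans hax⟩
    rcases hcov v with h' | h' | h' | h'
    · exact h'
    · exact absurd (h' ▸ hv) ha
    · exact absurd h' h.ne
    · exact absurd h' h.not_gt
  have hsx : sgn c x = (-1) ^ #z := by rw [sgn, hzx]
  have hss : sgn c x * sgn c x = 1 := by rw [hsx, ← pow_add]; exact Even.neg_one_pow ⟨_, rfl⟩
  have hlow : ∀ v, v < a → sgn (insert a c) v = sgn c v := fun v hv => by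
    rw [sgn, sgn, filter_insert, if_neg hv.not_gt]
  have hhigh : ∀ v, a < v → sgn (insert a c) v = -sgn c v := fun v hv => by
    rw [sgn, sgn, filter_insert, if_pos hv, card_insert_of_notMem (by simp [ha]), pow_succ]
    ring
  have hA : bdLin (hom a x S c) = (χ * sgn c x) • (single c (sgn c x)
      + ∑ v ∈ c, single ((insert a c).erase v) (sgn (insert a c) v)) := by
    rw [hom_of_mem S hx ha, ← hz, ← hχ, map_zsmul, bdLin_single, bd, sum_insert ha,
      erase_insert ha, smul_smul]
    congr 3
    rw [hsx, sgn, filter_insert, if_neg (lt_irrefl a)]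
  have hB : homLin a x S (bd c) = ∑ v ∈ c, sgn c v • hom a x S (c.erase v) := by
    simp only [bd, map_sum, homLin_single]
  rw [psi, hA, hB, smul_add, Finset.smul_sum, smul_single, smul_eq_mul, mul_assoc, hss, mul_one]
  simp only [smul_single, smul_eq_mul]
  have key : ∀ v ∈ c, single ((insert a c).erase v) (χ * sgn c x * sgn (insert a c) v)
      + sgn c v • hom a x S (c.erase v) =
      if v = x then single ((insert a c).erase x) (-χ) else if v < a then
        -single (insert a (c.erase v)) (sgn c v * sgn c x * (chi S (z.erase v) - χ)) else 0 := by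
    intro v hv
    by_cases hvx : v = x
    · subst hvx
      rw [if_pos rfl, hhigh v hax, hom, if_neg (fun h => notMem_erase v c h.1), smul_zero,
        add_zero, mul_neg, mul_assoc, hss, mul_one]
    have hxm : x ∈ c.erase v := mem_erase.2 ⟨Ne.symm hvx, hx⟩
    have ham : a ∉ c.erase v := fun h => ha (mem_of_mem_erase h)
    have hne : a ≠ v := fun h => ha (h ▸ hv)
    rw [if_neg hvx, hom_of_mem S hxm ham, filter_erase, ← hz, smul_single, smul_single,
      smul_eq_mul, smul_eq_mul, ← erase_insert_of_ne hne, ← single_add]
    rcases hcov v with h | h | h | h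
    · have e : sgn (c.erase v) x = -sgn c x := by
        have hm : v ∈ z := mem_filter.2 ⟨hv, h⟩
        rw [sgn, filter_erase, hzx, card_erase_of_mem hm, hsx]
        obtain ⟨m, hm'⟩ := Nat.exists_eq_succ_of_ne_zero (card_ne_zero_of_mem hm)
        rw [hm', pow_succ]
        simp
      rw [if_pos h, hlow v h, e, ← single_neg]
      congr 1
      ring
    · exact absurd h.symm hne
    · exact absurd h hvx
    · have e : sgn (c.erase v) x = sgn c x := by
        rw [sgn, sgn, filter_erase, erase_eq_of_notMem (by simp [h.le])]
      have e' : z.erase v = z := erase_eq_of_notMem (by simp [hz, (hax.trans h).le])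
      rw [if_neg (hax.trans h).not_gt, hhigh v (hax.trans h), e, e', ← hχ]
      rw [show χ * sgn c x * -sgn c v + sgn c v * (χ * sgn c x) = 0 by ring, single_zero]
  rw [sub_sub, add_assoc (single c χ), ← sum_add_distrib, sum_congr rfl key,
    ← add_sum_erase c _ hx, if_pos rfl, single_sub]
  have hsum : ∑ v ∈ c.erase x, (if v = x then single ((insert a c).erase x) (-χ) else if v < a then
      -single (insert a (c.erase v)) (sgn c v * sgn c x * (chi S (z.erase v) - χ)) else 0)
      = -∑ v ∈ z, single (insert a (c.erase v))
          (sgn c v * sgn c x * (chi S (z.erase v) - χ)) := by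
    rw [← sum_neg_distrib, hz, sum_filter, ← add_sum_erase c _ hx, if_neg hax.not_gt, zero_add]
    exact sum_congr rfl fun v hv => by rw [if_neg (ne_of_mem_erase hv)]
  rw [hsum, single_neg]
  abel

/-- The condition on `S` under which the partial retraction is positive: a face omitting an
odd position from the top is a member with the chain, an even one conversely. -/
def IsLower (S : Finset E → Prop) : Prop :=
  ∀ (z : Finset E) (v : E), v ∈ z →
    (Even #(z.filter (v < ·)) → S z → S (z.erase v)) ∧
    (Odd #(z.filter (v < ·)) → S (z.erase v) → S z)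

include hax hcov in
theorem psi_nonneg (hS : IsLower S) (hx : x ∈ c) (ha : a ∉ c) : 0 ≤ psi a x S c := by
  classical
  rw [psi_of_notMem hax hcov S hx ha]
  have hb : ∀ z, chi S z = 0 ∨ chi S z = 1 := fun z => by unfold chi; split_ifs <;> simp
  refine add_nonneg (add_nonneg ?_ ?_) (sum_nonneg fun v hv => ?_) <;>
    rw [← single_zero (_ : Finset E), single_le_single]
  · rcases hb (c.filter (· < a)) with h | h <;> simp [h]
  · rcases hb (c.filter (· < a)) with h | h <;> simp [h]
  set z := c.filter (· < a) with hz
  have hva := (mem_filter.1 hv).2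
  have hzx : c.filter (· < x) = z := by
    refine filter_congr fun w hw => ⟨fun h => ?_, fun h => h.trans hax⟩
    rcases hcov w with h' | h' | h' | h'
    · exact h'
    · exact absurd (h' ▸ hw) ha
    · exact absurd h' h.ne
    · exact absurd h' h.not_gt
  have hlow : c.filter (· < v) = z.filter (· < v) := by
    rw [hz, filter_filter]
    exact filter_congr fun w _ => ⟨fun h => ⟨h.trans hva, h⟩, fun h => h.2⟩
  have hcard : #(z.filter (· < v)) + #(z.filter (v < ·)) + 1 = #z := by
    rw [← card_union_of_disjoint (disjoint_filter.2 fun w _ h => h.not_gt)]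
    rw [← card_erase_add_one hv]
    congr 2
    ext w
    simp only [mem_union, mem_filter, mem_erase, ne_iff_lt_or_gt]
    tauto
  set p := #(z.filter (· < v)) with hp
  set q := #(z.filter (v < ·)) with hq
  have hs : sgn c v * sgn c x = (-1) ^ (q + 1) := by
    rw [sgn, sgn, hlow, hzx, ← hp, ← hcard, ← pow_add,
      show p + (p + q + 1) = (q + 1) + 2 * p by ring, pow_add (n := 2 * p), pow_mul]
    simp
  rw [hs]
  obtain ⟨h0, h1⟩ := hS z v hv
  rcases Nat.even_or_odd q with hq' | hq'
  · have := h0 hq'
    rw [hq'.add_one.neg_one_pow]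
    unfold chi
    split_ifs <;> simp_all
  · have := h1 hq'
    rw [hq'.add_one.neg_one_pow]
    unfold chi
    split_ifs <;> simp_all

end Vale.Agent.P213.Chains
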