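import Vale.Agent.P213.Chains.AltOrder
import Vale.Agent.P213.Chains.ZigzagAlg

/-!
The zigzag between `x ↦ a` and the identity through positive chain maps.
-/

namespace Vale.Agent.P213.Chains

open Finset Finsupp

variable {E : Type*} [LinearOrder E] {a x : E} {c : Finset E}

theorem sgn_erase {v w : E} (hv : v ∈ c) :
    sgn (c.erase v) w = if v < w then -sgn c w else sgn c w := by
  classical
  rw [sgn, sgn, filter_erase]
  split_ifs with h
  · have hm : v ∈ c.filter (· < w) := mem_filter.2 ⟨hv, h⟩
    rw [← card_erase_add_one hm, pow_succ]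
    ring
  · rw [erase_eq_of_notMem (by simp [h])]

theorem bdLin_bd (c : Finset E) : bdLin (bd c) = 0 := by
  classical
  simp only [bd, map_sum, bdLin_single, Finset.smul_sum, smul_single, smul_eq_mul]
  rw [Finset.sum_sigma']
  refine Finset.sum_involution (fun p _ => ⟨p.2, p.1⟩) (fun p hp => ?_) (fun p hp _ => ?_)
    (fun p hp => ?_) (fun p _ => rfl)
  all_goals obtain ⟨v, w⟩ := p; obtain ⟨hv, hw⟩ := mem_sigma.1 hp; obtain ⟨hwv, hwc⟩ := mem_erase.1 hw
  · simp only at hv hwc hwv ⊢
    rw [erase_right_comm, ← single_add, single_eq_zero, sgn_erase hv, sgn_erase hwc]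
    rcases lt_trichotomy v w with h | h | h
    · rw [if_pos h, if_neg h.not_gt]; ring
    · exact absurd h.symm hwv
    · rw [if_neg h.not_gt, if_pos h]; ring
  · exact fun h => hwv (congrArg Sigma.fst h)
  · exact mem_sigma.2 ⟨hwc, mem_erase.2 ⟨Ne.symm hwv, hv⟩⟩

theorem bdLin_bdLin (p : Cn E) : bdLin (bdLin p) = 0 := by
  induction p using Finsupp.induction_linear with
  | zero => simp
  | add p q hp hq => rw [map_add, map_add, hp, hq, add_zero]
  | single c r => rw [bdLin_single, map_zsmul, bdLin_bd, smul_zero]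

variable (S : Finset E → Prop) [DecidablePred S]

/-- The partial retraction on formal sums. -/
noncomputable def psiLin (a x : E) : Cn E →+ Cn E :=
  AddMonoidHom.id _ - bdLin.comp (homLin a x S) - (homLin a x S).comp bdLin

theorem psiLin_single (c : Finset E) (r : ℤ) : psiLin S a x (single c r) = r • psi a x S c := by
  simp [psiLin, psi, bdLin_single, homLin_single, smul_sub]

/-- The partial retractions are chain maps. -/
theorem bdLin_psiLin (p : Cn E) : bdLin (psiLin S a x p) = psiLin S a x (bdLin p) := by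
  simp [psiLin, bdLin_bdLin]

theorem homLin_bd_of_notMem (hx : x ∉ c) : homLin a x S (bd c) = 0 := by
  simp only [bd, map_sum, homLin_single]
  refine Finset.sum_eq_zero fun v _ => ?_
  rw [hom, if_neg fun h => hx (mem_of_mem_erase h.1), smul_zero]

/-- Chains without `x` are fixed. -/
theorem psi_eq_of_notMem (hx : x ∉ c) : psi a x S c = single c 1 := by
  rw [psi, hom, if_neg fun h => hx h.1, map_zero, homLin_bd_of_notMem S hx, sub_zero, sub_zero]

include S in
theorem psi_of_mem (hax : a < x) (hcov : ∀ v, v < a ∨ v = a ∨ v = x ∨ x < v) (hx : x ∈ c)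
    (ha : a ∈ c) : psi a x S c = single c (1 - chi S (c.filter (· < a))) := by
  classical
  have hd : homLin a x S (bd c) = single c (chi S (c.filter (· < a))) := by
    simp only [bd, map_sum, homLin_single]
    rw [Finset.sum_eq_single a]
    · have hxa : x ∈ c.erase a := mem_erase.2 ⟨hax.ne', hx⟩
      rw [hom_of_mem S hxa (notMem_erase a c), insert_erase ha, filter_erase,
        erase_eq_of_notMem (by simp), smul_single, smul_single, smul_eq_mul, smul_eq_mul,
        sgn_erase ha, if_pos hax]
      congr 1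
      have hm : a ∈ c.filter (· < x) := mem_filter.2 ⟨ha, hax⟩
      have he : (c.filter (· < x)).erase a = c.filter (· < a) := by
        ext v
        simp only [mem_erase, mem_filter]
        refine ⟨fun ⟨hne, hv, hvx⟩ => ⟨hv, ?_⟩, fun ⟨hv, hva⟩ => ⟨hva.ne, hv, hva.trans hax⟩⟩
        rcases hcov v with h | h | h | h
        exacts [h, absurd h hne, absurd h hvx.ne, absurd h hvx.not_gt]
      have e : sgn c x = -sgn c a := by
        rw [sgn, sgn, ← card_erase_add_one hm, he, pow_succ]
        ring
      rw [e, neg_neg, mul_left_comm, sgn, ← pow_add, Even.neg_one_pow ⟨_, rfl⟩, mul_one]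
    · intro v _ hv
      rw [hom, if_neg fun h => h.2.1 (mem_erase.2 ⟨Ne.symm hv, ha⟩), smul_zero]
    · exact fun h => absurd ha h
  rw [psi, hom, if_neg fun h => h.2.1 ha, map_zero, hd, sub_zero, single_sub]

/-- Every partial retraction is positive. -/
theorem psi_nonneg' (hax : a < x) (hcov : ∀ v, v < a ∨ v = a ∨ v = x ∨ x < v) (hS : IsLower S)
    (c : Finset E) : 0 ≤ psi a x S c := by
  by_cases hx : x ∈ c
  · by_cases ha : a ∈ c
    · rw [psi_of_mem S hax hcov hx ha, ← single_zero c, single_le_single, chi]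
      split_ifs <;> norm_num
    · exact psi_nonneg hax hcov S hS hx ha
  · rw [psi_eq_of_notMem S hx, ← single_zero c, single_le_single]
    norm_num

/-- With every lower chain in `S` it is the identity. -/
theorem psi_univ (hS : ∀ z, S z) (c : Finset E) : psi a x S c = single c 1 := by
  have hh : ∀ d, hom a x S d = 0 := fun d => by rw [hom, if_neg fun h => h.2.2 (hS _)]
  simp [psi, bd, map_sum, homLin_single, hh]

/-- With no lower chain in `S` it sends `x` to `a`, and degenerate chains to zero. -/
theorem psi_empty (hax : a < x) (hcov : ∀ v, v < a ∨ v = a ∨ v = x ∨ x < v) (hS : ∀ z, ¬ S z)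
    (hx : x ∈ c) :
    psi a x S c = if a ∈ c then 0 else single (insert a (c.erase x)) 1 := by
  classical
  have h1 : ∀ z, chi S z = 1 := fun z => if_neg (hS z)
  split_ifs with ha
  · rw [psi_of_mem S hax hcov hx ha, h1, sub_self, single_zero]
  · simp [psi_of_notMem hax hcov S hx ha, h1, erase_insert_of_ne hax.ne]

/-! ### One step -/

variable (S' : Finset E → Prop) [DecidablePred S']

/-- The homotopy between two partial retractions. -/
noncomputable def stepHom (a x : E) (c : Finset E) : Cn E := hom a x S c - hom a x S' c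

/-- The step homotopy on formal sums. -/
noncomputable def stepLin (a x : E) : Cn E →+ Cn E := homLin a x S - homLin a x S'

theorem stepLin_single (c : Finset E) (r : ℤ) :
    stepLin S S' a x (single c r) = r • stepHom S S' a x c := by
  simp [stepLin, stepHom, homLin_single, smul_sub]

/-- Neighbours differ by the boundary of the step homotopy. -/
theorem psi_sub_psi (c : Finset E) :
    psi a x S' c - psi a x S c =
      bdLin (stepHom S S' a x c) + stepLin S S' a x (bd c) := by
  simp only [psi, stepHom, stepLin, map_sub, AddMonoidHom.sub_apply]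
  abel

/-- The step homotopy vanishes on chains without `x`. -/
theorem stepHom_of_notMem (hx : x ∉ c) : stepHom S S' a x c = 0 := by
  rw [stepHom, hom, hom, if_neg fun h => hx h.1, if_neg fun h => hx h.1, sub_zero]

include S S' in
/-- If only one lower chain is added, the step homotopy has one sign. -/
theorem exists_sign (hax : a < x) (hcov : ∀ v, v < a ∨ v = a ∨ v = x ∨ x < v)
    (hle : ∀ z, S z → S' z) (hone : ∀ z z', S' z → ¬ S z → S' z' → ¬ S z' → z = z') :
    ∃ ε : ℤ, (ε = 1 ∨ ε = -1) ∧ ∀ c, 0 ≤ ε • stepHom S S' a x c := by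
  classical
  have hval : ∀ c, stepHom S S' a x c =
      if x ∈ c ∧ a ∉ c ∧ S' (c.filter (· < a)) ∧ ¬ S (c.filter (· < a))
      then single (insert a c) ((-1) ^ #(c.filter (· < a))) else 0 := by
    intro c
    by_cases hx : x ∈ c
    swap
    · rw [stepHom_of_notMem S S' hx, if_neg fun h => hx h.1]
    by_cases ha : a ∈ c
    · rw [stepHom, hom, hom, if_neg fun h => h.2.1 ha, if_neg fun h => h.2.1 ha, sub_zero,
        if_neg fun h => h.2.1 ha]
    have e : c.filter (· < x) = c.filter (· < a) := by
      refine filter_congr fun v hv => ⟨fun h => ?_, fun h => h.trans hax⟩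
      rcases hcov v with h' | h' | h' | h'
      exacts [h', absurd (h' ▸ hv) ha, absurd h' h.ne, absurd h' h.not_gt]
    rw [stepHom, hom, hom, sgn, e]
    by_cases h1 : S (c.filter (· < a))
    · simp [h1, hle _ h1]
    · by_cases h2 : S' (c.filter (· < a)) <;> simp [hx, ha, h1, h2]
  by_cases hex : ∃ z, S' z ∧ ¬ S z
  · obtain ⟨z₀, h0, h0'⟩ := hex
    refine ⟨(-1) ^ #z₀, neg_one_pow_eq_or ℤ _, fun c => ?_⟩
    rw [hval]
    split_ifs with h
    · rw [hone _ _ h.2.2.1 h.2.2.2 h0 h0', smul_single, smul_eq_mul, ← pow_add,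
        Even.neg_one_pow ⟨_, rfl⟩, ← single_zero (insert a c), single_le_single]
      norm_num
    · rw [smul_zero]
  · refine ⟨1, Or.inl rfl, fun c => ?_⟩
    rw [hval, if_neg fun h => hex ⟨_, h.2.2⟩, smul_zero]

include S S' in
/-- The sign of the step homotopy, read off the added chains. -/
theorem stepHom_signed (hax : a < x) (hcov : ∀ v, v < a ∨ v = a ∨ v = x ∨ x < v)
    (hle : ∀ z, S z → S' z) (ε : ℤ) (hε : ∀ z, S' z → ¬ S z → ε = (-1) ^ #z) (c : Finset E) :
    0 ≤ ε • stepHom S S' a x c := by
  classical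
  by_cases hx : x ∈ c
  swap
  · rw [stepHom_of_notMem S S' hx, smul_zero]
  by_cases ha : a ∈ c
  · rw [stepHom, hom, hom, if_neg fun h => h.2.1 ha, if_neg fun h => h.2.1 ha, sub_zero, smul_zero]
  have e : c.filter (· < x) = c.filter (· < a) := by
    refine filter_congr fun v hv => ⟨fun h => ?_, fun h => h.trans hax⟩
    rcases hcov v with h' | h' | h' | h'
    exacts [h', absurd (h' ▸ hv) ha, absurd h' h.ne, absurd h' h.not_gt]
  rw [stepHom, hom, hom, sgn, e]
  by_cases h1 : S (c.filter (· < a))
  · simp [h1, hle _ h1]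
  by_cases h2 : S' (c.filter (· < a))
  · rw [if_pos ⟨hx, ha, h1⟩, if_neg fun h => h.2.2 h2, sub_zero, hε _ h2 h1, smul_single,
      smul_eq_mul, ← pow_add, Even.neg_one_pow ⟨_, rfl⟩, ← single_zero (insert a c), single_le_single]
    norm_num
  · simp [hx, ha, h1, h2]

/-! ### The order of the lower chains -/

theorem sort_erase (z : Finset E) (v : E) :
    (z.erase v).sort (· ≥ ·) = (z.sort (· ≥ ·)).erase v := by
  refine List.Perm.eq_of_pairwise (le := (· ≥ ·)) (fun _ _ _ _ h h' => le_antisymm h' h)
    (pairwise_sort _ _) ((pairwise_sort _ _).sublist List.erase_sublist) ?_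
  refine (List.perm_ext_iff_of_nodup (sort_nodup _ _) ((sort_nodup _ _).erase _)).2 fun w => ?_
  simp [List.Nodup.mem_erase_iff (sort_nodup z (· ≥ ·))]

/-- A face against its chain in the alternating order. -/
theorem altLt_erase (z : Finset E) {v : E} (hv : v ∈ z) :
    (Even #(z.filter (v < ·)) → altLt ((z.erase v).sort (· ≥ ·)) (z.sort (· ≥ ·))) ∧
    (Odd #(z.filter (v < ·)) → altLt (z.sort (· ≥ ·)) ((z.erase v).sort (· ≥ ·))) := by
  classical
  set l := z.sort (· ≥ ·) with hl
  have hnd : l.Nodup := sort_nodup _ _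
  have hs : l.Pairwise (· > ·) :=
    ((pairwise_sort z (· ≥ ·)).and hnd).imp fun h => lt_of_le_of_ne h.1 h.2.symm
  have hvl : v ∈ l := (mem_sort _).2 hv
  have hq : #(z.filter (v < ·)) = l.idxOf v := by
    have hi : l.idxOf v < l.length := List.idxOf_lt_length_of_mem hvl
    have hiv : l[l.idxOf v] = v := List.getElem_idxOf hi
    have e : z.filter (v < ·) = (l.take (l.idxOf v)).toFinset := by
      ext w
      simp only [mem_filter, List.mem_toFinset]
      constructor
      · rintro ⟨hw, hvw⟩
        have hwl : w ∈ l := (mem_sort _).2 hw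
        rw [List.mem_take_iff_getElem]
        obtain ⟨i, hi', rfl⟩ := List.getElem_of_mem hwl
        refine ⟨i, lt_min ?_ hi', rfl⟩
        by_contra hni
        rcases (not_lt.1 hni).lt_or_eq with hlt | heq
        · have := List.pairwise_iff_getElem.1 hs _ _ hi hi' hlt
          rw [hiv] at this
          exact this.not_gt hvw
        · exact hvw.ne (by simp [← heq, hiv])
      · intro hw
        rw [List.mem_take_iff_getElem] at hw
        obtain ⟨i, hi', rfl⟩ := hw
        have hil : i < l.length := hi'.trans_le (min_le_right _ _)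
        refine ⟨(mem_sort (· ≥ ·)).1 (List.getElem_mem hil), ?_⟩
        have := List.pairwise_iff_getElem.1 hs i _ hil hi (hi'.trans_le (min_le_left _ _))
        rwa [hiv] at this
    rw [e, List.toFinset_card_of_nodup (hnd.sublist (List.take_sublist _ _)), List.length_take,
      min_eq_left hi.le]
  rw [sort_erase, ← hl, List.erase_eq_eraseIdx_of_idxOf rfl, hq]
  exact altLt_eraseIdx l hs _ (List.idxOf_lt_length_of_mem hvl)

variable [Fintype E]

open Classical in
/-- The place of a set in the alternating order. -/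
noncomputable def altRank (z : Finset E) : ℕ :=
  #((Finset.univ : Finset (Finset E)).filter fun w => altLt (w.sort (· ≥ ·)) (z.sort (· ≥ ·)))

theorem altRank_lt {z w : Finset E} (h : altLt (z.sort (· ≥ ·)) (w.sort (· ≥ ·))) :
    altRank z < altRank w := by
  classical
  refine card_lt_card ⟨fun u hu => ?_, fun hsub => ?_⟩
  · rw [mem_filter] at hu ⊢
    exact ⟨hu.1, altLt_trans hu.2 h⟩
  · exact altLt_irrefl _ (mem_filter.1 (hsub (mem_filter.2 ⟨mem_univ z, h⟩))).2

theorem altRank_injective : Function.Injective (altRank (E := E)) := by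
  intro z w h
  rcases altLt_trichotomous (z.sort (· ≥ ·)) (w.sort (· ≥ ·)) with h' | h' | h'
  · exact absurd h (altRank_lt h').ne
  · rw [← sort_toFinset z (· ≥ ·), h', sort_toFinset]
  · exact absurd h (altRank_lt h').ne'

/-- The `k`th initial segment of the order. -/
def Seg (k : ℕ) (z : Finset E) : Prop := altRank z < k

noncomputable instance (k : ℕ) : DecidablePred (Seg (E := E) k) := fun _ => Classical.propDecidable _

theorem isLower_seg (k : ℕ) : IsLower (Seg (E := E) k) := fun z _ hv =>
  ⟨fun h hz => (altRank_lt ((altLt_erase z hv).1 h)).trans hz,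
    fun h hz => (altRank_lt ((altLt_erase z hv).2 h)).trans hz⟩

/-- The zigzag: the `k`th map, from `x ↦ a` at `0` to the identity at the number of sets. -/
noncomputable def zig (a x : E) (k : ℕ) : Cn E →+ Cn E := psiLin (Seg k) a x

theorem zig_nonneg (hax : a < x) (hcov : ∀ v, v < a ∨ v = a ∨ v = x ∨ x < v) (k : ℕ)
    {p : Cn E} (hp : 0 ≤ p) : 0 ≤ zig a x k p := by
  rw [← sum_single p, Finsupp.sum, map_sum]
  refine Finset.sum_nonneg fun c _ => ?_
  rw [zig, psiLin_single]
  exact smul_nonneg (hp c) (psi_nonneg' _ hax hcov (isLower_seg k) c)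

theorem zig_bdLin (k : ℕ) (p : Cn E) : bdLin (zig a x k p) = zig a x k (bdLin p) :=
  bdLin_psiLin _ p

theorem zig_fix (k : ℕ) (hx : x ∉ c) (r : ℤ) : zig a x k (single c r) = single c r := by
  rw [zig, psiLin_single, psi_eq_of_notMem _ hx, smul_single, smul_eq_mul, mul_one]

theorem zig_last (p : Cn E) : zig a x (Fintype.card (Finset E)) p = p := by
  have h : ∀ z : Finset E, Seg (Fintype.card (Finset E)) z := fun z => by
    classical
    refine card_lt_card ⟨subset_univ _, fun hsub => ?_⟩
    exact altLt_irrefl _ (mem_filter.1 (hsub (mem_univ z))).2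
  rw [← sum_single p, Finsupp.sum, map_sum]
  exact Finset.sum_congr rfl fun c _ => by
    rw [zig, psiLin_single, psi_univ _ h, smul_single, smul_eq_mul, mul_one]

theorem zig_zero (hax : a < x) (hcov : ∀ v, v < a ∨ v = a ∨ v = x ∨ x < v) (c : Finset E)
    (r : ℤ) : zig a x 0 (single c r) =
      if x ∈ c then (if a ∈ c then 0 else single (insert a (c.erase x)) r) else single c r := by
  have h : ∀ z : Finset E, ¬ Seg 0 z := fun z => Nat.not_lt_zero _
  by_cases hx : x ∈ c
  · rw [zig, psiLin_single, psi_empty _ hax hcov h hx, if_pos hx]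
    split_ifs <;> simp
  · rw [if_neg hx, zig_fix _ hx]

/-- The homotopy of the `k`th step. -/
noncomputable def zigHom (a x : E) (k : ℕ) : Cn E →+ Cn E := stepLin (Seg k) (Seg (k + 1)) a x

theorem zig_step (k : ℕ) (p : Cn E) :
    zig a x (k + 1) p - zig a x k p = bdLin (zigHom a x k p) + zigHom a x k (bdLin p) := by
  simp only [zig, psiLin, zigHom, stepLin, AddMonoidHom.sub_apply, AddMonoidHom.comp_apply,
    AddMonoidHom.id_apply, map_sub]
  abel

theorem zigHom_fix (k : ℕ) (hx : x ∉ c) (r : ℤ) : zigHom a x k (single c r) = 0 := by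
  rw [zigHom, stepLin_single, stepHom_of_notMem _ _ hx, smul_zero]

theorem zigHom_sign (hax : a < x) (hcov : ∀ v, v < a ∨ v = a ∨ v = x ∨ x < v) (k : ℕ) :
    ∃ ε : ℤ, (ε = 1 ∨ ε = -1) ∧ ∀ p : Cn E, 0 ≤ p → 0 ≤ ε • zigHom a x k p := by
  obtain ⟨ε, hε, hpos⟩ := exists_sign (Seg k) (Seg (k + 1)) hax hcov
    (fun z (h : altRank z < k) => Nat.lt_succ_of_lt h)
    (fun z z' h1 h2 h3 h4 => altRank_injective (by simp only [Seg] at h1 h2 h3 h4; omega))
  refine ⟨ε, hε, fun p hp => ?_⟩
  rw [← sum_single p, Finsupp.sum, map_sum, Finset.smul_sum]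
  refine Finset.sum_nonneg fun c _ => ?_
  rw [zigHom, stepLin_single, smul_comm]
  exact smul_nonneg (hp c) (hpos c)

/-! ### Restriction to admissible chains -/

omit [Fintype E]

/-- A family of sets closed under faces and under inserting `a` below `x`, for example the chains
of a poset in which `a < x` and everything comparable with `x` is comparable with `a`. -/
def IsClosedFamily (P : Finset E → Prop) (a x : E) : Prop :=
  (∀ c v, P c → P (c.erase v)) ∧ ∀ c, P c → x ∈ c → P (insert a c)

variable {P : Finset E → Prop} {p : Cn E}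

/-- Sums supported in the family. -/
def supp (P : Finset E → Prop) : AddSubgroup (Cn E) where
  carrier := {p | ∀ c, p c ≠ 0 → P c}
  zero_mem' c h := absurd rfl h
  add_mem' {p q} hp hq c h := by
    by_cases hc : p c = 0
    · exact hq c (by simpa [hc] using h)
    · exact hp c hc
  neg_mem' {p} hp c h := hp c (by simpa using h)

theorem single_mem_supp (h : P c) (r : ℤ) : single c r ∈ supp P := fun d hd => by
  classical
  rw [single_apply, ne_eq, ite_eq_right_iff, Classical.not_imp] at hd
  exact hd.1 ▸ h

omit [LinearOrder E] in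
theorem map_mem_supp (F : Cn E →+ Cn E) (hF : ∀ c r, P c → F (single c r) ∈ supp P)
    (hp : p ∈ supp P) : F p ∈ supp P := by
  rw [← sum_single p, Finsupp.sum, map_sum]
  exact AddSubgroup.sum_mem _ fun c hc => hF c _ (hp c (mem_support_iff.1 hc))

theorem bdLin_mem (hP : IsClosedFamily P a x) (hp : p ∈ supp P) : bdLin p ∈ supp P :=
  map_mem_supp _ (fun c r hc => by
    rw [bdLin_single]
    exact AddSubgroup.zsmul_mem _ (AddSubgroup.sum_mem _ fun v _ =>
      single_mem_supp (hP.1 c v hc) _) _) hp

theorem homLin_mem (hP : IsClosedFamily P a x) (hp : p ∈ supp P) : homLin a x S p ∈ supp P :=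
  map_mem_supp _ (fun c r hc => by
    rw [homLin_single, hom]
    refine AddSubgroup.zsmul_mem _ ?_ _
    split_ifs with h
    · exact single_mem_supp (hP.2 c hc h.1) _
    · exact zero_mem _) hp

theorem zig_mem [Fintype E] (hP : IsClosedFamily P a x) (k : ℕ) (hp : p ∈ supp P) :
    zig a x k p ∈ supp P :=
  sub_mem (sub_mem hp (bdLin_mem hP (homLin_mem _ hP hp))) (homLin_mem _ hP (bdLin_mem hP hp))

theorem zigHom_mem [Fintype E] (hP : IsClosedFamily P a x) (k : ℕ) (hp : p ∈ supp P) :
    zigHom a x k p ∈ supp P :=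
  sub_mem (homLin_mem _ hP hp) (homLin_mem _ hP hp)

end Vale.Agent.P213.Chains
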