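import Vale.Agent.P213.Oriental
import Vale.Agent.P213.Chains.Zigzag

/-!
The zigzag on the complex of chains of a finite linear order `J`, with `a` immediately below `x`.

`psiC S q c` is the partial retraction and `hC S S' q c` the homotopy of one step, in the
coordinates `Chain J q →₀ ℤ` of Steiner's complex of chains.
-/

noncomputable section

namespace Vale.Agent.P213.Chains

open Finset Finsupp

variable {J J' : Type} [LinearOrder J] [LinearOrder J']

/-- The vertices of a chain. -/
def toSet {q : ℕ} (c : Chain J q) : Finset J := univ.image c.1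

theorem card_toSet {q : ℕ} (c : Chain J q) : #(toSet c) = q + 1 := by
  rw [toSet, card_image_of_injective _ c.2.injective, card_univ, Fintype.card_fin]

theorem toSet_injective {q : ℕ} : Function.Injective (toSet (J := J) (q := q)) := by
  intro c d h
  have hm : ∀ (e : Chain J q), toSet e = toSet c →
      e.1 = (toSet c).orderEmbOfFin (card_toSet c) := fun e he =>
    orderEmbOfFin_unique (card_toSet c) (fun i => by rw [← he]; simp [toSet]) e.2
  exact Subtype.ext ((hm c rfl).trans (hm d h.symm).symm)

theorem exists_toSet {q : ℕ} {s : Finset J} (h : #s = q + 1) : ∃ c : Chain J q, toSet c = s :=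
  ⟨⟨s.orderEmbOfFin h, (s.orderEmbOfFin h).strictMono⟩, image_orderEmbOfFin_univ s h⟩

/-- Chains as formal sums of sets. -/
def incl (q : ℕ) : (Chain J q →₀ ℤ) →+ Cn J := Finsupp.mapDomain.addMonoidHom toSet

/-- The part of a formal sum on sets of `q + 1` points. -/
def proj (q : ℕ) : Cn J →+ (Chain J q →₀ ℤ) :=
  Finsupp.comapDomain.addMonoidHom toSet_injective

theorem incl_single {q : ℕ} (c : Chain J q) (r : ℤ) :
    incl q (single c r) = single (toSet c) r :=
  mapDomain_single

theorem proj_incl (q : ℕ) (v : Chain J q →₀ ℤ) : proj q (incl q v) = v :=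
  comapDomain_mapDomain _ toSet_injective v

theorem incl_injective (q : ℕ) : Function.Injective (incl (J := J) q) :=
  Function.LeftInverse.injective (proj_incl q)

theorem proj_nonneg {q : ℕ} {p : Cn J} (h : 0 ≤ p) : 0 ≤ proj q p := fun c => h (toSet c)

/-- Sums of sets of a given size. -/
abbrev grade (J : Type) (n : ℕ) : AddSubgroup (Cn J) := supp fun s => #s = n

theorem incl_proj {q : ℕ} {p : Cn J} (h : p ∈ grade J (q + 1)) : incl q (proj q p) = p :=
  mapDomain_comapDomain _ toSet_injective p fun s hs =>
    exists_toSet (h s (mem_support_iff.1 hs))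

theorem incl_mem {q : ℕ} (v : Chain J q →₀ ℤ) : incl q v ∈ grade J (q + 1) := by
  rw [← sum_single v, Finsupp.sum, map_sum]
  exact AddSubgroup.sum_mem _ fun c _ => by
    rw [incl_single]; exact single_mem_supp (P := fun s => #s = q + 1) (card_toSet c) _

theorem bdLin_grade {n : ℕ} {p : Cn J} (h : p ∈ grade J (n + 1)) : bdLin p ∈ grade J n := by
  rw [← sum_single p, Finsupp.sum, map_sum]
  refine AddSubgroup.sum_mem _ fun c hc => ?_
  rw [bdLin_single]
  refine AddSubgroup.zsmul_mem _ (AddSubgroup.sum_mem _ fun v hv => ?_) _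
  refine single_mem_supp (P := fun s : Finset J => #s = n) ?_ _
  rw [card_erase_of_mem hv, h c (mem_support_iff.1 hc), Nat.add_sub_cancel]

variable {a x : J} (S S' : Finset J → Prop) [DecidablePred S] [DecidablePred S']

theorem homLin_grade {n : ℕ} {p : Cn J} (h : p ∈ grade J n) :
    homLin a x S p ∈ grade J (n + 1) := by
  rw [← sum_single p, Finsupp.sum, map_sum]
  refine AddSubgroup.sum_mem _ fun c hc => ?_
  rw [homLin_single, hom]
  refine AddSubgroup.zsmul_mem _ ?_ _
  split_ifs with hh
  · refine single_mem_supp (P := fun s : Finset J => #s = n + 1) ?_ _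
    rw [card_insert_of_notMem hh.2.1, h c (mem_support_iff.1 hc)]
  · exact zero_mem _

theorem psiLin_grade {n : ℕ} {p : Cn J} (h : p ∈ grade J (n + 1)) :
    psiLin S a x p ∈ grade J (n + 1) :=
  sub_mem (sub_mem h (bdLin_grade (homLin_grade S h))) (homLin_grade S (bdLin_grade h))

theorem toSet_face {q : ℕ} (c : Chain J (q + 1)) (i : Fin (q + 2)) :
    toSet (c.face i) = (toSet c).erase (c.1 i) := by
  show univ.image (c.1 ∘ i.succAbove) = _
  rw [← image_image, Fin.image_succAbove_univ, compl_singleton, image_erase c.2.injective, toSet]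

theorem sgn_toSet {q : ℕ} (c : Chain J q) (i : Fin (q + 1)) :
    sgn (toSet c) (c.1 i) = (-1) ^ (i : ℕ) := by
  have e : (univ.filter fun j => c.1 j < c.1 i) = Iio i := by
    ext j
    simp [c.2.lt_iff_lt]
  rw [sgn, toSet, filter_image, card_image_of_injective _ c.2.injective, e, Fin.card_Iio]

theorem incl_bdry (q : ℕ) (v : Chain J (q + 1) →₀ ℤ) :
    incl q (bdry q v) = bdLin (incl (q + 1) v) := by
  induction v using Finsupp.induction_linear with
  | zero => simp
  | add p p' hp hp' => simp [map_add, hp, hp']
  | single c r =>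
    rw [incl_single, bdLin_single, bd, toSet, sum_image c.2.injective.injOn, ← toSet]
    simp only [bdry, Finsupp.liftAddHom_apply_single, AddMonoidHom.finsetSum_apply, map_sum,
      Finset.smul_sum, AddMonoidHom.smul_apply, Finsupp.singleAddHom_apply,
      incl_single, toSet_face, sgn_toSet, smul_single, smul_eq_mul]
    exact Finset.sum_congr rfl fun i _ => by rw [mul_comm]

theorem bdLin_incl_zero (v : Chain J 0 →₀ ℤ) : bdLin (incl 0 v) = single ∅ (aug v) := by
  induction v using Finsupp.induction_linear with
  | zero => simp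
  | add p p' hp hp' => simp [map_add, hp, hp', single_add]
  | single c r =>
    have h : toSet c = {c.1 0} := by
      rw [toSet, show (univ : Finset (Fin 1)) = {0} from rfl, image_singleton]
    rw [incl_single, bdLin_single, h, bd, sum_singleton, sgn, erase_singleton]
    simp [aug, filter_singleton]

variable (a x)

/-- The partial retraction on chains. -/
def psiC (q : ℕ) (c : Chain J q) : Chain J q →₀ ℤ := proj q (psi a x S (toSet c))

/-- The partial retraction on formal sums of chains. -/
def psiCLin (q : ℕ) : (Chain J q →₀ ℤ) →+ (Chain J q →₀ ℤ) :=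
  ((proj q).comp (psiLin S a x)).comp (incl q)

/-- The step homotopy on chains. -/
def hC (q : ℕ) (c : Chain J q) : Chain J (q + 1) →₀ ℤ :=
  proj (q + 1) (stepHom S S' a x (toSet c))

/-- The step homotopy on formal sums of chains. -/
def hCLin (q : ℕ) : (Chain J q →₀ ℤ) →+ (Chain J (q + 1) →₀ ℤ) :=
  ((proj (q + 1)).comp (stepLin S S' a x)).comp (incl q)

variable {a x}

theorem psiCLin_single {q : ℕ} (c : Chain J q) (r : ℤ) :
    psiCLin a x S q (single c r) = r • psiC a x S q c := by
  simp [psiCLin, psiC, incl_single, psiLin_single]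

theorem hCLin_single {q : ℕ} (c : Chain J q) (r : ℤ) :
    hCLin a x S S' q (single c r) = r • hC a x S S' q c := by
  simp [hCLin, hC, incl_single, stepLin_single]

theorem psiCLin_eq_sum {q : ℕ} (v : Chain J q →₀ ℤ) :
    psiCLin a x S q v = v.sum fun c m => m • psiC a x S q c := by
  conv_lhs => rw [← sum_single v]
  rw [map_finsuppSum]
  simp [psiCLin_single]

theorem hCLin_eq_sum {q : ℕ} (v : Chain J q →₀ ℤ) :
    hCLin a x S S' q v = v.sum fun c m => m • hC a x S S' q c := by
  conv_lhs => rw [← sum_single v]
  rw [map_finsuppSum]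
  simp [hCLin_single]

theorem bdry_eq_sum {q : ℕ} (v : Chain J (q + 1) →₀ ℤ) :
    (v.sum fun c m => m • bdry q (single c 1)) = bdry q v := by
  conv_rhs => rw [← sum_single v]
  rw [map_finsuppSum]
  simp [← map_zsmul]

theorem incl_psiCLin {q : ℕ} (v : Chain J q →₀ ℤ) :
    incl q (psiCLin a x S q v) = psiLin S a x (incl q v) :=
  incl_proj (psiLin_grade S (incl_mem v))

theorem incl_hCLin {q : ℕ} (v : Chain J q →₀ ℤ) :
    incl (q + 1) (hCLin a x S S' q v) = stepLin S S' a x (incl q v) :=
  incl_proj (sub_mem (homLin_grade S (incl_mem v)) (homLin_grade S' (incl_mem v)))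

/-! ### The fields of a positive chain map -/

variable (hax : a < x) (hcov : ∀ v, v < a ∨ v = a ∨ v = x ∨ x < v)

include hax hcov in
/-- Positivity. -/
theorem psiC_nonneg (hS : IsLower S) (q : ℕ) (b c : Chain J q) : 0 ≤ psiC a x S q b c :=
  proj_nonneg (psi_nonneg' S hax hcov hS (toSet b)) c

theorem bdry_psiCLin (q : ℕ) (v : Chain J (q + 1) →₀ ℤ) :
    bdry q (psiCLin a x S (q + 1) v) = psiCLin a x S q (bdry q v) := by
  refine incl_injective q ?_
  rw [incl_bdry, incl_psiCLin, incl_psiCLin, incl_bdry, bdLin_psiLin]

/-- The chain map equation. -/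
theorem psiC_comm (q : ℕ) (b : Chain J (q + 1)) :
    ((psiC a x S (q + 1) b).sum fun c m => m • bdry q (single c 1)) =
      (bdry q (single b 1)).sum fun c m => m • psiC a x S q c := by
  rw [bdry_eq_sum, ← psiCLin_eq_sum, ← bdry_psiCLin, psiCLin_single, one_smul]

/-- The augmentation is preserved. -/
theorem psiC_aug (b : Chain J 0) : aug (psiC a x S 0 b) = 1 := by
  have e := bdLin_incl_zero (psiCLin a x S 0 (single b 1))
  rw [incl_psiCLin, bdLin_psiLin, bdLin_incl_zero, psiLin_single,
    psi_eq_of_notMem S (notMem_empty x), smul_single, psiCLin_single, one_smul] at e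
  simpa [aug] using (single_injective _ e).symm

theorem psiC_aug_sum (b : Chain J 0) :
    ((psiC a x S 0 b).sum fun _ m => m * 1) = (1 : ℤ) := by
  have h := psiC_aug (a := a) (x := x) S b
  simp only [mul_one]
  exact h

/-! ### Endpoints -/

/-- Everything in `S`: the identity. -/
theorem psiC_univ (hS : ∀ z, S z) (q : ℕ) (b : Chain J q) : psiC a x S q b = single b 1 := by
  rw [psiC, psi_univ S hS, ← incl_single, proj_incl]

/-- The map `x ↦ a`. -/
def collapse (hax : a < x) (hcov : ∀ v, v < a ∨ v = a ∨ v = x ∨ x < v) : J →o J where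
  toFun v := if v = x then a else v
  monotone' v w h := by
    dsimp only
    split_ifs with h1 h2 h2
    · exact le_rfl
    · exact hax.le.trans (h1 ▸ h)
    · rcases hcov v with e | e | e | e
      exacts [e.le, e.le, absurd e h1, absurd (h2 ▸ h) e.not_ge]
    · exact h

include hax hcov in
/-- Nothing in `S`: the map `x ↦ a`. -/
theorem psiC_empty (hS : ∀ z, ¬ S z) (q : ℕ) (b : Chain J q) :
    psiC a x S q b = b.push (collapse hax hcov) := by
  classical
  set f := collapse hax hcov with hf
  have hfx : ∀ v, f v = if v = x then a else v := fun v => rfl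
  by_cases hx : x ∈ toSet b
  swap
  · have e : ∀ i, f (b.1 i) = b.1 i := fun i => by
      rw [hfx, if_neg fun h => hx (by simp only [toSet, mem_image]; exact ⟨i, mem_univ _, h⟩)]
    have e' : f ∘ b.1 = b.1 := funext e
    rw [psiC, psi_eq_of_notMem S hx, ← incl_single, proj_incl, Chain.push,
      dif_pos (show StrictMono (f ∘ b.1) by rw [e']; exact b.2)]
    exact congrArg (single · 1) (Subtype.ext e'.symm)
  rw [psiC, psi_empty S hax hcov hS hx]
  obtain ⟨i, -, hi⟩ := mem_image.1 hx
  split_ifs with ha
  · obtain ⟨j, -, hj⟩ := mem_image.1 ha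
    rw [map_zero, Chain.push, dif_neg]
    intro h
    have e : (f ∘ b.1) i = (f ∘ b.1) j := by simp [hfx, hi, hj, hax.ne]
    exact hax.ne (by rw [← hi, ← hj, h.injective e])
  · have hmono : StrictMono (f ∘ b.1) := by
      refine (f.monotone.comp b.2.monotone).strictMono_of_injective fun k l hkl => ?_
      have hne : ∀ k, b.1 k ≠ a := fun k h => ha (mem_image.2 ⟨k, mem_univ _, h⟩)
      simp only [Function.comp_apply, hfx] at hkl
      split_ifs at hkl with h1 h2 h2
      exacts [b.2.injective (h1.trans h2.symm), absurd hkl.symm (hne l), absurd hkl (hne k),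
        b.2.injective hkl]
    rw [Chain.push, dif_pos hmono]
    refine (congrArg (proj q) ?_).trans (proj_incl q _)
    rw [incl_single]
    congr 1
    ext v
    simp only [toSet, mem_insert, mem_erase, mem_image, mem_univ, true_and, Function.comp_apply,
      hfx]
    constructor
    · rintro (rfl | ⟨hne, k, rfl⟩)
      · exact ⟨i, by rw [hi, if_pos rfl]⟩
      · exact ⟨k, if_neg hne⟩
    · rintro ⟨k, rfl⟩
      split_ifs with h
      exacts [Or.inl rfl, Or.inr ⟨h, k, rfl⟩]

/-! ### One step, in the form of a transformation -/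

variable (a x) in
/-- The equation in degree `0`. -/
theorem hC_zero (b : Chain J 0) :
    ((hC a x S S' 0 b).sum fun c m => m • bdry 0 (single c 1)) =
      psiC a x S' 0 b - psiC a x S 0 b := by
  rw [bdry_eq_sum]
  refine incl_injective 0 ?_
  have e : ∀ T : Finset J → Prop, ∀ [DecidablePred T],
      incl 0 (psiC a x T 0 b) = psi a x T (toSet b) := fun T _ => by
    have := incl_psiCLin (a := a) (x := x) T (single b 1)
    rwa [psiCLin_single, one_smul, incl_single, psiLin_single, one_smul] at this
  have eh : incl 1 (hC a x S S' 0 b) = stepHom S S' a x (toSet b) := by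
    have := incl_hCLin (a := a) (x := x) S S' (single b 1)
    rwa [hCLin_single, one_smul, incl_single, stepLin_single, one_smul] at this
  have hb : stepLin S S' a x (bd (toSet b)) = 0 := by
    have h := bdLin_incl_zero (single b (1 : ℤ))
    rw [incl_single, bdLin_single, one_smul] at h
    rw [h, stepLin_single, stepHom_of_notMem S S' (notMem_empty x), smul_zero]
  rw [map_sub, e, e, incl_bdry, eh, psi_sub_psi, hb, add_zero]

variable (a x) in
/-- The equation in positive degrees. -/
theorem hC_succ (q : ℕ) (b : Chain J (q + 1)) :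
    (((hC a x S S' (q + 1) b).sum fun c m => m • bdry (q + 1) (single c 1)) +
      (bdry q (single b 1)).sum fun c m => m • hC a x S S' q c) =
      psiC a x S' (q + 1) b - psiC a x S (q + 1) b := by
  rw [bdry_eq_sum, ← hCLin_eq_sum]
  refine incl_injective (q + 1) ?_
  have e : ∀ T : Finset J → Prop, ∀ [DecidablePred T],
      incl (q + 1) (psiC a x T (q + 1) b) = psi a x T (toSet b) := fun T _ => by
    have := incl_psiCLin (a := a) (x := x) T (single b 1)
    rwa [psiCLin_single, one_smul, incl_single, psiLin_single, one_smul] at this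
  have eh : incl (q + 1 + 1) (hC a x S S' (q + 1) b) = stepHom S S' a x (toSet b) := by
    have := incl_hCLin (a := a) (x := x) S S' (single b 1)
    rwa [hCLin_single, one_smul, incl_single, stepLin_single, one_smul] at this
  rw [map_sub, e, e, map_add, incl_bdry, eh, incl_hCLin, incl_bdry, incl_single, bdLin_single,
    one_smul, psi_sub_psi]

include hax hcov in
/-- The step homotopy has one sign. -/
theorem hC_sign (hle : ∀ z, S z → S' z)
    (hone : ∀ z z', S' z → ¬ S z → S' z' → ¬ S z' → z = z') :
    ∃ ε : ℤ, (ε = 1 ∨ ε = -1) ∧ ∀ q b c, 0 ≤ ε * hC a x S S' q b c := by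
  obtain ⟨ε, hε, h⟩ := exists_sign S S' hax hcov hle hone
  exact ⟨ε, hε, fun q b c => by
    have := h (toSet b) (toSet c)
    rw [Finsupp.smul_apply, smul_eq_mul] at this
    exact this⟩

/-- Chains without `x` are not moved. -/
theorem psiC_of_notMem {q : ℕ} {b : Chain J q} (h : ∀ i, b.1 i ≠ x) :
    psiC a x S q b = single b 1 ∧ hC a x S S' q b = 0 := by
  have hx : x ∉ toSet b := by simp [toSet, h]
  refine ⟨?_, by rw [hC, stepHom_of_notMem S S' hx, map_zero]⟩
  rw [psiC, psi_eq_of_notMem S hx, ← incl_single, proj_incl]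

/-! ### Injective monotone maps fixing `a` and `x` -/

variable {φ : J → J'} (hφ : StrictMono φ) (T : Finset J' → Prop) [DecidablePred T]
  (hT : ∀ z, S z ↔ T (z.image φ))

include hφ in
theorem sgn_image (c : Finset J) (v : J) : sgn (c.image φ) (φ v) = sgn c v := by
  rw [sgn, sgn, filter_image, card_image_of_injective _ hφ.injective]
  simp [hφ.lt_iff_lt]

include hφ in
omit [DecidablePred T] in
/-- A pulled back family is still lower. -/
theorem isLower_comap (hT : IsLower T) : IsLower fun z => T (z.image φ) := by
  intro z v hv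
  have e : #((z.image φ).filter (φ v < ·)) = #(z.filter (v < ·)) := by
    rw [filter_image, card_image_of_injective _ hφ.injective]
    simp [hφ.lt_iff_lt]
  obtain ⟨h1, h2⟩ := hT (z.image φ) (φ v) (mem_image_of_mem φ hv)
  rw [e, ← image_erase hφ.injective] at h1 h2
  exact ⟨h1, h2⟩

/-- The action of a map on formal sums of sets. -/
def mapSets (φ : J → J') : Cn J →+ Cn J' := Finsupp.mapDomain.addMonoidHom (Finset.image φ)

omit [LinearOrder J] in
theorem mapSets_single (c : Finset J) (r : ℤ) :
    mapSets φ (single c r) = single (c.image φ) r :=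
  mapDomain_single

include hφ in
theorem mapSets_bdLin (p : Cn J) : mapSets φ (bdLin p) = bdLin (mapSets φ p) := by
  induction p using Finsupp.induction_linear with
  | zero => simp
  | add p p' hp hp' => simp [map_add, hp, hp']
  | single c r =>
    rw [bdLin_single, mapSets_single, bdLin_single, map_zsmul, bd, bd, map_sum,
      sum_image hφ.injective.injOn]
    congr 1
    exact Finset.sum_congr rfl fun v _ => by
      rw [mapSets_single, image_erase hφ.injective, sgn_image hφ]

include hφ hT in
theorem mapSets_homLin (p : Cn J) :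
    mapSets φ (homLin a x S p) = homLin (φ a) (φ x) T (mapSets φ p) := by
  induction p using Finsupp.induction_linear with
  | zero => simp
  | add p p' hp hp' => simp [map_add, hp, hp']
  | single c r =>
    rw [homLin_single, mapSets_single, homLin_single, map_zsmul]
    congr 1
    have e : (c.image φ).filter (· < φ a) = (c.filter (· < a)).image φ := by
      simp [filter_image, hφ.lt_iff_lt]
    simp only [hom, e, ← hT, mem_image, hφ.injective.eq_iff, exists_eq_right, sgn_image hφ]
    split_ifs with h
    · rw [mapSets_single, image_insert]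
    · rw [map_zero]

include hφ hT in
theorem mapSets_psiLin (p : Cn J) :
    mapSets φ (psiLin S a x p) = psiLin T (φ a) (φ x) (mapSets φ p) := by
  simp [psiLin, map_sub, mapSets_bdLin hφ, mapSets_homLin S hφ T hT]

include hφ in
theorem incl_pushMap {q : ℕ} (v : Chain J q →₀ ℤ) :
    incl q (pushMap ⟨φ, hφ.monotone⟩ q v) = mapSets φ (incl q v) := by
  induction v using Finsupp.induction_linear with
  | zero => simp
  | add p p' hp hp' => simp [map_add, hp, hp']
  | single c r =>
    rw [pushMap_single, map_zsmul, incl_single, mapSets_single, Chain.push,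
      dif_pos (show StrictMono ((⟨φ, hφ.monotone⟩ : J →o J') ∘ c.1) from hφ.comp c.2),
      incl_single, smul_single, smul_eq_mul, mul_one]
    congr 1
    rw [toSet, toSet, image_image]
    rfl

include hφ hT in
/-- The retraction commutes with injective monotone maps. -/
theorem psiCLin_push {q : ℕ} (v : Chain J q →₀ ℤ) :
    pushMap ⟨φ, hφ.monotone⟩ q (psiCLin a x S q v) =
      psiCLin (φ a) (φ x) T q (pushMap ⟨φ, hφ.monotone⟩ q v) := by
  refine incl_injective q ?_
  rw [incl_psiCLin, incl_pushMap hφ, incl_pushMap hφ, incl_psiCLin, mapSets_psiLin S hφ T hT]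

include hφ hT in
/-- So do the step homotopies. -/
theorem hCLin_push (T' : Finset J' → Prop) [DecidablePred T']
    (hT' : ∀ z, S' z ↔ T' (z.image φ)) {q : ℕ} (v : Chain J q →₀ ℤ) :
    pushMap ⟨φ, hφ.monotone⟩ (q + 1) (hCLin a x S S' q v) =
      hCLin (φ a) (φ x) T T' q (pushMap ⟨φ, hφ.monotone⟩ q v) := by
  refine incl_injective (q + 1) ?_
  rw [incl_hCLin, incl_pushMap hφ, incl_pushMap hφ, incl_hCLin]
  simp [stepLin, map_sub, mapSets_homLin S hφ T hT, mapSets_homLin S' hφ T' hT']

/-! ### The numbered family, pulled back along `φ : J → L` -/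

variable {L : Type} [LinearOrder L] [Fintype L] {ψ : J → L} (hψ : StrictMono ψ)

/-- The `k`th lower family on `J`, pulled back from the alternating order of `L`; these are
compatible under injective monotone maps over `L`. -/
def segOn (ψ : J → L) (k : ℕ) (z : Finset J) : Prop := Seg k (z.image ψ)

instance (ψ : J → L) (k : ℕ) : DecidablePred (segOn ψ k) := fun _ => Classical.propDecidable _

include hψ in
theorem isLower_segOn (k : ℕ) : IsLower (segOn ψ k) := isLower_comap hψ (Seg k) (isLower_seg k)

omit [LinearOrder J] in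
theorem segOn_zero (z : Finset J) : ¬ segOn ψ 0 z := Nat.not_lt_zero _

omit [LinearOrder J] in
theorem segOn_last (z : Finset J) : segOn ψ (Fintype.card (Finset L)) z := by
  classical
  refine card_lt_card ⟨subset_univ _, fun hsub => ?_⟩
  exact altLt_irrefl _ (mem_filter.1 (hsub (mem_univ (z.image ψ)))).2

omit [LinearOrder J] in
theorem segOn_mono (k : ℕ) (z : Finset J) (h : segOn ψ k z) : segOn ψ (k + 1) z :=
  Nat.lt_succ_of_lt h

include hψ in
theorem segOn_step (k : ℕ) (z z' : Finset J) (h1 : segOn ψ (k + 1) z) (h2 : ¬ segOn ψ k z)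
    (h3 : segOn ψ (k + 1) z') (h4 : ¬ segOn ψ k z') : z = z' :=
  image_injective hψ.injective (altRank_injective (by simp only [segOn, Seg] at h1 h2 h3 h4; omega))

omit [LinearOrder J] in
/-- Compatibility over `L`. -/
theorem segOn_comp (φ : J → J') (θ : J' → L) (h : ∀ v, θ (φ v) = ψ v) (k : ℕ) (z : Finset J) :
    segOn ψ k z ↔ segOn θ k (z.image φ) := by
  rw [segOn, segOn, image_image, show θ ∘ φ = ψ from funext h]

end Vale.Agent.P213.Chains
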